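import Mathlib

namespace Vale.Agent.P355

open ComplexConjugate Finset

theorem dvd_of_int (a b : ℤ) (hb : b ≠ 0) (w : ℂ) (hw : IsIntegral ℤ w) (h : (a:ℂ) = b * w) :
    b ∣ a := by
  have hb' : (b:ℂ) ≠ 0 := by exact_mod_cast hb
  have hw2 : w = algebraMap ℚ ℂ ((a:ℚ) / b) := by
    have : w = (a:ℂ) / b := by rw [h]; field_simp
    rw [this]; simp
  rw [hw2] at hw
  have h1 : IsIntegral ℤ ((a:ℚ) / b) :=
    (isIntegral_algebraMap_iff (algebraMap ℚ ℂ).injective).1 hw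
  obtain ⟨k, hk⟩ := IsIntegrallyClosed.isIntegral_iff.1 h1
  have hk2 : (k:ℚ) = (a:ℚ) / b := by simpa using hk
  have hbq : (b:ℚ) ≠ 0 := by exact_mod_cast hb
  have h3 : (a:ℚ) = b * k := by rw [hk2]; field_simp
  exact ⟨k, by exact_mod_cast h3⟩

theorem core (p n m j : ℕ) (hp : p.Prime) (hpn : p ∣ n) (hpn2 : ¬ p ^ 2 ∣ n) (hm : m ∣ p ^ j + 1)
    (hcop : p.Coprime m) {ι : Type} [Fintype ι] (ε : ι → ℤ)
    (hε : ∀ i, ε i = 1 ∨ (p = 2 ∧ ε i = -1)) (ζ : ι → ℂ) (hζ : ∀ i, ζ i ^ m = 1) :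
    (∑ i, (ε i : ℂ) * ζ i) * conj (∑ i, (ε i : ℂ) * ζ i) ≠ n := by
  intro hn
  have hm0 : 0 < m := Nat.pos_of_dvd_of_pos hm (Nat.succ_pos _)
  let O := integralClosure ℤ ℂ
  have hint : ∀ i, IsIntegral ℤ (ζ i) := fun i =>
    IsIntegral.of_pow hm0 (by rw [hζ i]; exact isIntegral_one)
  let zt : ι → O := fun i => ⟨ζ i, hint i⟩
  have hζ1 : ∀ i, ζ i ^ (p ^ j + 1) = 1 := by
    intro i
    obtain ⟨s, hs⟩ := hm
    rw [hs, pow_mul, hζ i, one_pow]
  have hnorm : ∀ i, ‖ζ i‖ = 1 := fun i =>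
    Complex.norm_eq_one_of_pow_eq_one (hζ i) hm0.ne'
  have hconj : ∀ i, conj (ζ i) = ζ i ^ (p ^ j) := by
    intro i
    have h1 : ζ i * conj (ζ i) = 1 := by
      rw [Complex.mul_conj, Complex.normSq_eq_norm_sq, hnorm i]; simp
    have h2 : ζ i ^ (p ^ j) * ζ i = 1 := by rw [← pow_succ]; exact hζ1 i
    calc conj (ζ i) = (ζ i ^ (p ^ j) * ζ i) * conj (ζ i) := by rw [h2, one_mul]
      _ = ζ i ^ (p ^ j) * (ζ i * conj (ζ i)) := by ring
      _ = _ := by rw [h1, mul_one]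
  have hsum : conj (∑ i, (ε i : ℂ) * ζ i) = ∑ i, (ε i : ℂ) * ζ i ^ (p ^ j) := by
    rw [map_sum]
    refine sum_congr rfl fun i _ => ?_
    rw [map_mul, hconj i]
    congr 1
    exact map_intCast (starRingEnd ℂ) (ε i)
  rw [hsum] at hn
  let z : O := ∑ i, (ε i : O) * zt i
  let zb : O := ∑ i, (ε i : O) * zt i ^ (p ^ j)
  have hz : (z : ℂ) = ∑ i, (ε i : ℂ) * ζ i := by
    simp only [z]; push_cast; rfl
  have hzb : (zb : ℂ) = ∑ i, (ε i : ℂ) * ζ i ^ (p ^ j) := by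
    simp only [zb]; push_cast; rfl
  have hzz : z * zb = (n : O) := by
    apply Subtype.ext
    push_cast
    rw [hz, hzb, hn]
  have hpz : (p:ℤ) ≠ 0 := by exact_mod_cast hp.ne_zero
  have hnon : (p : O) ∈ nonunits O := by
    intro hu
    obtain ⟨u, hu⟩ := hu
    have h1 : (p : O) * (↑u⁻¹ : O) = 1 := by rw [← hu]; exact u.mul_inv
    have h2 : ((1:ℤ) : ℂ) = ((p:ℤ):ℂ) * ((↑u⁻¹ : O) : ℂ) := by
      have := congrArg (fun x : O => (x : ℂ)) h1
      push_cast at this ⊢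
      exact this.symm
    have h3 := dvd_of_int 1 p hpz _ (↑u⁻¹ : O).2 h2
    have h4 : p ∣ 1 := by exact_mod_cast h3
    exact hp.one_lt.ne' (Nat.dvd_one.1 h4)
  have : Fact p.Prime := ⟨hp⟩
  let J : Ideal O := Ideal.span ({(p : O)} : Set O)
  have : CharP (O ⧸ J) p := CharP.quotient O p hnon
  let π : O →+* O ⧸ J := Ideal.Quotient.mk J
  have hεπ : ∀ i, π (ε i : O) = 1 := by
    intro i
    rcases hε i with h | ⟨h2, h⟩
    · rw [h]; simp
    · rw [h]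
      have h3 : ((p : ℕ) : O ⧸ J) = 0 := CharP.cast_eq_zero _ p
      rw [h2] at h3
      have h4 : (1 : O ⧸ J) + 1 = 0 := by
        have : ((2:ℕ) : O ⧸ J) = 1 + 1 := by norm_num
        rw [← this]; exact h3
      have h5 : π ((-1 : ℤ) : O) = -1 := by simp
      rw [h5]
      linear_combination -h4
  have hπz : π z = ∑ i, π (zt i) := by
    simp only [z]
    rw [map_sum]
    refine sum_congr rfl fun i _ => ?_
    rw [map_mul, hεπ i, one_mul]
  have hfrob : ∀ t : ℕ, π z ^ (p ^ t) = ∑ i, π (zt i) ^ (p ^ t) := by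
    intro t
    rw [hπz, sum_pow_char_pow]
  have hπzb : π zb = π z ^ (p ^ j) := by
    rw [hfrob]
    simp only [zb]
    rw [map_sum]
    refine sum_congr rfl fun i _ => ?_
    rw [map_mul, hεπ i, one_mul, map_pow]
  have hn0 : π (n : O) = 0 := by
    obtain ⟨s, hs⟩ := hpn
    rw [hs]
    push_cast
    rw [map_mul]
    have : π (p : O) = 0 := by
      rw [map_natCast]; exact CharP.cast_eq_zero _ p
    rw [this, zero_mul]
  have hzero : π z ^ (p ^ j + 1) = 0 := by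
    have := congrArg π hzz
    rw [map_mul, hπzb, hn0] at this
    rw [pow_succ']; exact this
  set T := m.totient * (j + 1) with hT
  have hT1 : p ^ T ≡ 1 [MOD m] := by
    rw [hT, pow_mul]
    have := (Nat.ModEq.pow_totient hcop).pow (j + 1)
    simpa using this
  have hTj : j + 1 ≤ T := by
    rw [hT]
    exact Nat.le_mul_of_pos_left _ (Nat.totient_pos.2 hm0)
  have hpT : p ^ j + 1 ≤ p ^ T := by
    calc p ^ j + 1 ≤ p ^ j * p := by
          have h1 : 1 ≤ p ^ j := Nat.one_le_pow _ _ hp.pos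
          have h2 : 2 ≤ p := hp.two_le
          nlinarith
      _ = p ^ (j + 1) := (pow_succ p j).symm
      _ ≤ p ^ T := Nat.pow_le_pow_right hp.pos hTj
  have hζT : ∀ i, ζ i ^ (p ^ T) = ζ i := by
    intro i
    have h1 : 1 ≤ p ^ T := Nat.one_le_pow _ _ hp.pos
    have h2 : m ∣ p ^ T - 1 := (Nat.modEq_iff_dvd' h1).1 hT1.symm
    obtain ⟨s, hs⟩ := h2
    have h3 : p ^ T = m * s + 1 := by omega
    rw [h3, pow_succ, pow_mul, hζ i, one_pow, one_mul]
  have hfix : π z ^ (p ^ T) = π z := by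
    rw [hfrob]
    conv_rhs => rw [hπz]
    refine sum_congr rfl fun i _ => ?_
    rw [← map_pow]
    congr 1
    apply Subtype.ext
    push_cast
    exact hζT i
  have hz0 : π z = 0 := by
    rw [← hfix]
    obtain ⟨s, hs⟩ := Nat.exists_eq_add_of_le hpT
    rw [hs, pow_add, hzero, zero_mul]
  have hzb0 : π zb = 0 := by
    rw [hπzb, hz0, zero_pow (pow_pos hp.pos j).ne']
  have h1 : z ∈ J := Ideal.Quotient.eq_zero_iff_mem.1 hz0
  have h2 : zb ∈ J := Ideal.Quotient.eq_zero_iff_mem.1 hzb0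
  obtain ⟨w1, hw1⟩ := Ideal.mem_span_singleton'.1 h1
  obtain ⟨w2, hw2⟩ := Ideal.mem_span_singleton'.1 h2
  have h3 : (((n:ℕ):ℤ) : ℂ) = (((p:ℤ) ^ 2 : ℤ) : ℂ) * ((w1 * w2 : O) : ℂ) := by
    have h4 : (n : O) = (p:O) ^ 2 * (w1 * w2) := by rw [← hzz, ← hw1, ← hw2]; ring
    have := congrArg (fun x : O => (x : ℂ)) h4
    push_cast at this ⊢
    exact this
  have h4 := dvd_of_int n ((p:ℤ) ^ 2) (pow_ne_zero 2 hpz) _ (w1 * w2 : O).2 h3
  exact hpn2 (by exact_mod_cast h4)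

end Vale.Agent.P355
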