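import Mathlib

namespace Vale.Agent.P355

open ComplexConjugate Finset Matrix
open scoped Kronecker

/-- the matrix of rank one projectors, with the diagonal replaced by the basis indicators -/
noncomputable def X {d : ℕ} (B : Fin d → Fin d → Fin d → ℂ) :
    Matrix (Fin d × Fin d) (Fin d × Fin d) ℂ :=
  fun r c => if c.1 = c.2 then (if r.1 = c.1 then 1 else 0)
    else d * (B r.1 r.2 c.1 * conj (B r.1 r.2 c.2))

/-- the Gram block -/
noncomputable def A (d : ℕ) : Matrix (Fin d) (Fin d) ℂ :=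
  fun i j => (d:ℂ) ^ 2 * (if i = j then 1 else 0) - (d - 1)

theorem A_apply (d : ℕ) (i j : Fin d) :
    A d i j = (d:ℂ) ^ 2 * (if i = j then 1 else 0) - (d - 1) := rfl

theorem det_A (d : ℕ) (hd : 0 < d) : (A d).det = (d:ℂ) ^ (2 * d - 1) := by
  have hdc : (d:ℂ) ≠ 0 := by exact_mod_cast hd.ne'
  have h1 : A d = ((d:ℂ) ^ 2) • (1 + replicateCol Unit (fun _ : Fin d => -((d:ℂ) - 1) / d ^ 2) *
      replicateRow Unit (fun _ : Fin d => (1:ℂ))) := by
    ext i j
    rw [A_apply, Matrix.smul_apply, Matrix.add_apply, Matrix.mul_apply, Matrix.one_apply]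
    simp only [replicateCol_apply, replicateRow_apply, univ_unique, sum_singleton, smul_eq_mul]
    field_simp
    ring
  rw [h1, det_smul, det_one_add_replicateCol_mul_replicateRow]
  simp only [dotProduct, one_mul, sum_const, card_univ, Fintype.card_fin, nsmul_eq_mul]
  have h2 : (d:ℂ) ^ (2 * d) = (d:ℂ) ^ (2 * d - 1) * d := by
    rw [← pow_succ]; congr 1; omega
  rw [← pow_mul, h2]
  field_simp
  ring

/-- inner product -/
noncomputable def ipc {d : ℕ} (u v : Fin d → ℂ) : ℂ := ∑ k, conj (u k) * v k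

theorem gram {d : ℕ} (hd : 0 < d) (B : Fin d → Fin d → Fin d → ℂ)
    (h0 : ∀ b j k, ‖B b j k‖ ^ 2 = 1 / (d:ℝ))
    (h1 : ∀ b i j, ipc (B b i) (B b j) = if i = j then 1 else 0)
    (h2 : ∀ b b', b ≠ b' → ∀ i j, ‖ipc (B b i) (B b' j)‖ ^ 2 = 1 / (d:ℝ)) :
    X B * (X B)ᴴ = (1 : Matrix (Fin d) (Fin d) ℂ) ⊗ₖ (A d) := by
  have hdc : (d:ℂ) ≠ 0 := by exact_mod_cast hd.ne'
  have hdr : (d:ℝ) ≠ 0 := by exact_mod_cast hd.ne'
  ext r r'
  obtain ⟨b, i⟩ := r
  obtain ⟨b', j⟩ := r'
  rw [mul_apply]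
  simp only [conjTranspose_apply, kronecker_apply, one_apply]
  have hnn : ∀ b j k, B b j k * conj (B b j k) = 1 / (d:ℂ) := by
    intro b j k
    rw [Complex.mul_conj, Complex.normSq_eq_norm_sq, h0]; push_cast; rfl
  have key : ∑ c : Fin d × Fin d, X B (b, i) c * star (X B (b', j) c) =
      (d:ℂ) ^ 2 * (conj (ipc (B b i) (B b' j)) * ipc (B b i) (B b' j)) - d +
        (if b = b' then 1 else 0) := by
    have e1 : ∀ c : Fin d × Fin d, X B (b, i) c * star (X B (b', j) c) =
        (d:ℂ) ^ 2 * ((B b i c.1 * conj (B b' j c.1)) * (conj (B b i c.2) * B b' j c.2)) -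
        (if c.1 = c.2 then (1:ℂ) else 0) +
        (if c.1 = c.2 then (if b = c.1 then 1 else 0) * (if b' = c.1 then 1 else 0) else 0) := by
      rintro ⟨a, c⟩
      simp only [X]
      by_cases hac : a = c
      · subst hac
        simp only [if_true]
        have h3 : (B b i a * conj (B b' j a)) * (conj (B b i a) * B b' j a) =
            (1 / (d:ℂ)) * (1 / d) := by
          rw [← hnn b i a]
          nth_rw 2 [hnn b i a]
          rw [← hnn b' j a]; ring
        rw [h3]
        have h4 : (d:ℂ) ^ 2 * (1 / (d:ℂ) * (1 / d)) = 1 := by field_simp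
        rw [h4]
        by_cases h5 : b' = a <;> simp [h5]
      · simp only [if_neg hac]
        simp only [star_mul', RCLike.star_def, Complex.conj_natCast, Complex.conj_conj]
        ring
    rw [sum_congr rfl fun c _ => e1 c, sum_add_distrib, sum_sub_distrib, ← mul_sum]
    congr 1
    · congr 1
      · congr 1
        rw [Fintype.sum_prod_type]
        simp only [ipc, map_sum, map_mul, Complex.conj_conj]
        rw [sum_mul_sum]
      · rw [Fintype.sum_prod_type]
        simp
    · rw [Fintype.sum_prod_type]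
      simp only [sum_ite_eq, mem_univ, if_true]
      by_cases hb : b = b'
      · subst hb; simp
      · rw [if_neg hb]
        refine sum_eq_zero fun a _ => ?_
        by_cases h5 : b = a
        · have : b' ≠ a := fun h => hb (h5.trans h.symm)
          simp [this]
        · simp [h5]
  rw [key]
  have hS : conj (ipc (B b i) (B b' j)) * ipc (B b i) (B b' j) =
      ((‖ipc (B b i) (B b' j)‖ ^ 2 : ℝ) : ℂ) := by
    rw [mul_comm, Complex.mul_conj, Complex.normSq_eq_norm_sq]
  by_cases hb : b = b'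
  · subst hb
    rw [h1, A_apply]
    by_cases hij : i = j
    · simp only [hij, if_true, map_one]; ring
    · simp only [hij, if_false, if_true, map_zero]; ring
  · rw [hS, h2 b b' hb]
    simp only [if_neg hb]
    push_cast
    field_simp
    ring

theorem sign_prodComm (d : ℕ) :
    Equiv.Perm.sign (Equiv.prodComm (Fin d) (Fin d) : Equiv.Perm (Fin d × Fin d)) =
      (-1) ^ (d * (d - 1) / 2) := by
  have h1 : (Equiv.prodComm (Fin d) (Fin d) : Equiv.Perm (Fin d × Fin d)) ^ 2 = 1 := by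
    ext x <;> simp [pow_two]
  rw [Equiv.Perm.sign_of_pow_two_eq_one h1]
  have h2 : Fintype.card (Function.fixedPoints
      (Equiv.prodComm (Fin d) (Fin d) : Equiv.Perm (Fin d × Fin d))) = d := by
    refine (Fintype.card_congr (β := Fin d)
      ⟨fun x => x.1.1, fun a => ⟨(a, a), rfl⟩, ?_, fun a => rfl⟩).trans (Fintype.card_fin d)
    rintro ⟨⟨a, c⟩, h⟩
    have h3 : (c, a) = (a, c) := h
    simp only [Prod.mk.injEq] at h3
    simp [h3.1]
  rw [h2]
  congr 2
  simp only [Fintype.card_prod, Fintype.card_fin]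
  rw [Nat.mul_sub, mul_one]

theorem conj_X {d : ℕ} (B : Fin d → Fin d → Fin d → ℂ) :
    (X B).map conj = (X B).submatrix id (Equiv.prodComm (Fin d) (Fin d)) := by
  ext r c
  obtain ⟨a, c⟩ := c
  change conj (X B r (a, c)) = X B r (c, a)
  by_cases h : a = c
  · subst h
    simp only [X, if_true]
    by_cases h1 : r.1 = a <;> simp [h1]
  · have h' : ¬ c = a := fun h1 => h h1.symm
    simp only [X, if_neg h, if_neg h', map_mul, Complex.conj_natCast, Complex.conj_conj]
    ring

/-- the discriminant identity -/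
theorem det_sq {d : ℕ} (hd : 0 < d) (B : Fin d → Fin d → Fin d → ℂ)
    (h0 : ∀ b j k, ‖B b j k‖ ^ 2 = 1 / (d:ℝ))
    (h1 : ∀ b i j, ipc (B b i) (B b j) = if i = j then 1 else 0)
    (h2 : ∀ b b', b ≠ b' → ∀ i j, ‖ipc (B b i) (B b' j)‖ ^ 2 = 1 / (d:ℝ)) :
    (X B).det ^ 2 = (-1) ^ (d * (d - 1) / 2) * (d:ℂ) ^ (d * (2 * d - 1)) := by
  have e1 := congrArg Matrix.det (gram hd B h0 h1 h2)
  rw [det_mul, det_conjTranspose, det_kronecker, det_one, one_pow, one_mul, det_A d hd,
    Fintype.card_fin, ← pow_mul, mul_comm (2 * d - 1) d] at e1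
  have e2 : star (X B).det = (-1) ^ (d * (d - 1) / 2) * (X B).det := by
    have h3 : star (X B).det = ((X B).map conj).det := by
      rw [RCLike.star_def]
      exact RingHom.map_det (starRingEnd ℂ) (X B)
    rw [h3, conj_X, det_permute', sign_prodComm]
    push_cast
    rfl
  rw [e2] at e1
  have h4 : ((-1:ℂ) ^ (d * (d - 1) / 2)) * ((-1:ℂ) ^ (d * (d - 1) / 2)) = 1 := by
    rw [← mul_pow]; simp
  calc (X B).det ^ 2 = ((-1:ℂ) ^ (d * (d - 1) / 2) * (-1:ℂ) ^ (d * (d - 1) / 2)) *
        (X B).det ^ 2 := by rw [h4, one_mul]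
    _ = (-1:ℂ) ^ (d * (d - 1) / 2) *
        ((X B).det * ((-1:ℂ) ^ (d * (d - 1) / 2) * (X B).det)) := by ring
    _ = _ := by rw [e1]

theorem det_mem {d : ℕ} (B : Fin d → Fin d → Fin d → ℂ) (K : Subfield ℂ)
    (hK : ∀ b j a c, B b j a * conj (B b j c) ∈ K) : (X B).det ∈ K := by
  rw [det_apply]
  refine K.sum_mem fun σ _ => ?_
  have h1 : ∏ i, X B (σ i) i ∈ K := by
    refine K.prod_mem fun c _ => ?_
    simp only [X]
    split_ifs
    · exact K.one_mem
    · exact K.zero_mem
    · exact K.mul_mem (natCast_mem K d) (hK _ _ _ _)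
  rcases Int.units_eq_one_or (Equiv.Perm.sign σ) with h | h <;> rw [h]
  · simpa using h1
  · simpa using h1

end Vale.Agent.P355
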