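import Vale.Agent.Lib.P355.Disc

namespace Vale.Agent.P355

open ComplexConjugate Finset Matrix

/-- in dimension six the field of the coordinate products contains `i` -/
theorem I_mem (B : Fin 6 → Fin 6 → Fin 6 → ℂ)
    (h0 : ∀ b j k, ‖B b j k‖ ^ 2 = 1 / ((6:ℕ):ℝ))
    (h1 : ∀ b i j, ipc (B b i) (B b j) = if i = j then 1 else 0)
    (h2 : ∀ b b', b ≠ b' → ∀ i j, ‖ipc (B b i) (B b' j)‖ ^ 2 = 1 / ((6:ℕ):ℝ))
    (K : Subfield ℂ) (hK : ∀ b j a c, B b j a * conj (B b j c) ∈ K) : Complex.I ∈ K := by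
  have h3 := det_sq (by norm_num) B h0 h1 h2
  have h4 := det_mem B K hK
  set D := (X B).det with hD
  have h5 : (D / 6 ^ 33) ^ 2 = -1 := by
    rw [div_pow, h3]
    norm_num
  have h6 : D / 6 ^ 33 ∈ K := K.div_mem h4 (K.pow_mem (by exact_mod_cast natCast_mem K 6) 33)
  have h7 : (D / 6 ^ 33 - Complex.I) * (D / 6 ^ 33 + Complex.I) = 0 := by
    have : Complex.I ^ 2 = -1 := Complex.I_sq
    linear_combination h5 - this
  rcases mul_eq_zero.1 h7 with h | h
  · rw [← sub_eq_zero.1 h]; exact h6
  · have : Complex.I = -(D / 6 ^ 33) := by linear_combination h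
    rw [this]; exact K.neg_mem h6

/-- Parseval for an orthonormal family of `d` vectors -/
theorem parseval {d : ℕ} (e : Fin d → Fin d → ℂ)
    (he : ∀ i j, ipc (e i) (e j) = if i = j then 1 else 0) (u v : Fin d → ℂ) :
    ∑ a, conj (ipc (e a) u) * ipc (e a) v = ipc u v := by
  let M : Matrix (Fin d) (Fin d) ℂ := fun a k => conj (e a k)
  have h1 : M * Mᴴ = 1 := by
    ext i j
    rw [mul_apply, one_apply]
    have := he i j
    unfold ipc at this
    rw [← this]
    refine sum_congr rfl fun k _ => ?_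
    rw [conjTranspose_apply]
    change conj (e i k) * star (conj (e j k)) = _
    simp
  have h2 : Mᴴ * M = 1 := mul_eq_one_comm.1 h1
  have h3 : ∀ k l, ∑ a, e a k * conj (e a l) = if k = l then 1 else 0 := by
    intro k l
    have := congrFun (congrFun h2 k) l
    rw [mul_apply, one_apply] at this
    rw [← this]
    refine sum_congr rfl fun a _ => ?_
    rw [conjTranspose_apply]
    change _ = star (conj (e a k)) * conj (e a l)
    simp
  unfold ipc
  calc ∑ a, conj (∑ k, conj (e a k) * u k) * ∑ l, conj (e a l) * v l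
      = ∑ a, ∑ k, ∑ l, (conj (u k) * v l) * (e a k * conj (e a l)) := by
        refine sum_congr rfl fun a _ => ?_
        rw [map_sum, sum_mul_sum]
        refine sum_congr rfl fun k _ => sum_congr rfl fun l _ => ?_
        rw [map_mul, Complex.conj_conj]; ring
    _ = ∑ k, ∑ l, (conj (u k) * v l) * ∑ a, e a k * conj (e a l) := by
        rw [sum_comm]
        refine sum_congr rfl fun k _ => ?_
        rw [sum_comm]
        exact sum_congr rfl fun l _ => by rw [mul_sum]
    _ = ∑ k, conj (u k) * v k := by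
        refine sum_congr rfl fun k _ => ?_
        simp [h3]

/-- `i` is not in the cyclotomic field of odd order -/
theorem I_notMem (m : ℕ) (hm : Odd m) (ζ : ℂ) (hζ : IsPrimitiveRoot ζ m) :
    Complex.I ∉ (IntermediateField.adjoin ℚ {ζ}).toSubfield := by
  intro h
  have hm0 : m ≠ 0 := hm.pos.ne'
  have : NeZero m := ⟨hm0⟩
  let K := IntermediateField.adjoin ℚ {ζ}
  have halg : IsAlgebraic ℚ ζ := ((hζ.isIntegral hm.pos).tower_top (A := ℚ)).isAlgebraic
  have hcyc : IsCyclotomicExtension {m} ℚ K := by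
    change IsCyclotomicExtension {m} ℚ (IntermediateField.adjoin ℚ {ζ}).toSubalgebra
    rw [IntermediateField.adjoin_simple_toSubalgebra_of_isAlgebraic halg]
    exact hζ.adjoin_isCyclotomicExtension ℚ
  have hnf : NumberField K := IsCyclotomicExtension.numberField {m} ℚ K
  let x : K := ⟨Complex.I, h⟩
  let z : K := ⟨ζ, IntermediateField.mem_adjoin_simple_self ℚ ζ⟩
  have hz : IsPrimitiveRoot z m := by
    have : IsPrimitiveRoot (algebraMap K ℂ z) m := hζ
    exact this.of_map_of_injective (algebraMap K ℂ).injective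
  have hx2 : x ^ 2 = -1 := by
    apply Subtype.ext
    push_cast
    exact Complex.I_sq
  have hx4 : x ^ 4 = 1 := by
    have : x ^ 4 = (x ^ 2) ^ 2 := by ring
    rw [this, hx2]; norm_num
  have hfin : IsOfFinOrder x := isOfFinOrder_iff_pow_eq_one.2 ⟨4, by norm_num, hx4⟩
  obtain ⟨r, hr⟩ := IsPrimitiveRoot.exists_neg_pow_of_isOfFinOrder hm hz hfin
  have h1 : x ^ (2 * m) = 1 := by
    rw [hr, ← pow_mul, mul_comm r, pow_mul]
    have : (-z) ^ (2 * m) = 1 := by
      rw [pow_mul, neg_sq, ← pow_mul, mul_comm 2 m, pow_mul, hz.pow_eq_one, one_pow]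
    rw [this, one_pow]
  have h2 : x ^ (2 * m) = -1 := by rw [pow_mul, hx2, hm.neg_one_pow]
  rw [h1] at h2
  norm_num at h2

end Vale.Agent.P355
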